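import Crest.Agent.X212.Cyt76.T
import Crest.Agent.X212.Cyc79.Lip
import Crest.Agent.X212.Mon62.NkI
import Crest.Agent.X212.Mp86.Nkb

/-!
# Row 212, CRIT-CYC (helper76): the cyclic invariants are natural, lift, are bounded and smooth
-/

set_option autoImplicit false
set_option linter.unusedSectionVars false
noncomputable section
open scoped Manifold ContDiff Topology InnerProductSpace
open MeasureTheory Set Function Filter

namespace Crest.Agent.X212.Cyt76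
open An Cyf70 Dgr80 Nd18 Crt72 Eqv71
open Lin97 (Hy)
open Cyc79 (dc_gP den_h)

variable {E3 : Type} [NormedAddCommGroup E3] [NormedSpace ℝ E3] [FiniteDimensional ℝ E3]
  [MeasurableSpace E3] [BorelSpace E3]
  {H3 : Type} [TopologicalSpace H3] {I3 : ModelWithCorners ℝ E3 H3} [I3.Boundaryless]
  {Y : Type} [TopologicalSpace Y] [ChartedSpace H3 Y] [IsManifold I3 ∞ Y] [T2Space Y]
  [MeasurableSpace Y] [BorelSpace Y] [SecondCountableTopology Y] [CompactSpace Y]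
  {κ : Type} [Fintype κ] {lam : Type} [Fintype lam] {D : YD I3 Y κ lam} {β : YC Y κ lam}

theorem natC (h : HY D) : NatC D := fun _ _ _ _ hβ hβ' e j =>
  integral_congr_ae (.of_forall fun y => ((nkR_refl (O := univ) D.nk fun _ h => (h trivial).elim).den
    (okZ h.ok h.dim.le).kc (cr0_univ (ad0 hβ.adm) (ad0 hβ'.adm) e) j.2).h (mem_univ (y, 0)))

theorem gA_sh (h : Hy D β) (j : Bc D) (x : Y × ℝ) : (den D (.cy j)).gA (cy β) (fun _ => 1) x =
    (den D (.cy j)).gA (cy β) (fun _ => 1) (x.1, 0) := by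
  have z := okZ h.ok h.dim.le
  have g := fun s => ((nkR_shift D s).den (z.kc_sh s) (z.cr_sh (ad0 h.adm) s) j.2).gA
    (f := fun _ => 1) (f' := fun _ => 1) (fun _ _ => rfl) (x.1, 0) trivial
  have := (g x.2).trans (g 0).symm
  simp only [zero_add] at this
  exact this

theorem lift_cy (h : HY D) (j : Bc D) : Lift D (.cy j) := fun β hβ => by
  refine ⟨fun δ t hδ => ?_, fun a x => ⟨?_, (dc_gP _ _).trans
    ((congrArg (a • ·) (dc_gP _ _)).trans (smul_zero _)).symm⟩⟩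
  · have e : (den D (.cy j)).h (cy β) = fun x => (den D (.cy j)).h (cy β) (x.1, 0) :=
      funext (den_h ⟨h, hβ⟩ j.2)
    rw [e]
    simp only [Spn45.nk_τ, wn, smul_eq_mul, mul_comm (b _ _)]
    refine (integral_prod_mul (μ := D.F.μ) (ν := volume)
      (fun y => (den D (.cy j)).h (cy β) (y, 0)) fun s => b δ (s - t)).trans ?_
    rw [integral_sub_right_eq_self (b δ), integral_b hδ, mul_one]
    rfl
  · have hB := Spn45.bumps_cyl D.F
    have hA := mc_adW hβ.adm.conn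
    have k : Mon62.DH (cy β) (den D (.cy j)) := (((Mon62.sh_cyc hB hA _).wd hB hA _).sed
      ((Mon62.sh_cyc hB hA _).wd hB hA _)).cut _
    have := k.A a (fun _ => 1) x
    simp only [mul_one] at this
    rw [this, gA_sh ⟨h, hβ⟩, map_smul]
    rfl

open Mp86 in
theorem bd_cy (h : HY D) (j : Bc D) : ∃ R, ∀ β, D.Adm β → |(yf D (.cy j)).f β| ≤ R ∧
    Ctl D.F (gr2 I3 D.F.e (cn β) β.Φ) 1 R (cn β) ((yf D (.cy j)).gP β) ∧
    ∃ g, Dom D.F R g ∧ ∀ y, ‖(yf D (.cy j)).gA β y‖ ^ 2 ≤ R + g y := by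
  obtain ⟨C, hC⟩ := (okZ h.ok h.dim.le).tame
  have hS : 0 < max (C 0) 1 := lt_max_of_lt_right one_pos
  obtain ⟨k1, a1⟩ := sb_cyc (r := 0) h.ok hS j.2.1 j.2.2.1
  obtain ⟨k2, a2⟩ := sb_cyc (r := 0) h.ok hS j.2.2.2.1 j.2.2.2.2
  obtain ⟨k, hk⟩ := (db_cut ⟨_, fun X => ((a1 X).mono (le_max_left k1 k2)).den
    ((a2 X).mono (le_max_right k1 k2))⟩).exists
  have H : DB D.B D.G (den D (.cy j)) k :=
    hk ⟨D.nk, h.ok.B, h.ok.G, ⟨C, hC⟩, (l4_of_tame hC).mono (le_max_left _ _)⟩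
  have k0 := H.one
  have m : 0 ≤ k * D.F.μ.real univ := by positivity
  refine ⟨k * D.F.μ.real univ + 2 * k, fun β hβ => ⟨?_, ?_, _, (dom_slice
    (g := fun y => ‖(yf D (.cy j)).gA β y‖ ^ 2) (Hy.tame ⟨h, hβ⟩).choose_spec ?_
    (fun _ => sq_nonneg _) ((H.A _ hβ.adm (fun _ => 1) 1 fun _ => abs_one.le).mono le_rfl
      fun x => ?_)).mono (by linarith) fun _ => le_rfl, fun _ => le_add_of_nonneg_left (by linarith)⟩⟩
  · exact (norm_integral_le_of_norm_le_const (μ := D.F.μ) (C := k)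
      (f := fun y => (den D (.cy j)).h (cy β) (y, 0))
      (.of_forall fun y => H.le _ hβ.adm (y, 0))).trans (by linarith)
  · rw [show (yf D (.cy j)).gP β = fun _ => 0 from funext fun _ => dc_gP _ _]
    exact Ctl.zero zero_le_one (fun _ => gr2_nonneg) (by linarith)
  · have H : Hy D β := ⟨h, hβ⟩
    rw [funext (Der92.gA_cy H j)]
    exact (contDiff_norm_sq ℝ).contMDiff.comp
      ((Der92.sm_gy H j.2.1 j.2.2.1 (Der92.sp_wy H j.2.2.2.1 j.2.2.2.2).1).add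
        (Der92.sm_gy H j.2.2.2.1 j.2.2.2.2 (Der92.sp_wy H j.2.1 j.2.2.1).1))
  · rw [gA_sh ⟨h, hβ⟩]
    exact Cyc79.norm_dw _

variable (D) in
/-- **CRIT-CYC** -/
theorem cycStmt : CycStmt D := fun h _ => ⟨natC h, fun j =>
  have L := fun β hβ => Cyc79.lip_cy (β := β) h (lift_cy h j) hβ
  have t : ∀ β, D.Adm β → ∀ k, 7 ≤ k → ∃ T, RpT D β (yf D (.cy j)) (k + 1) (k + 1) T :=
    fun _ hβ _ hk => rpT_cy ⟨h, hβ⟩ (by omega) j
  ⟨⟨t, fun _ hβ _ hk => rpf_cy ⟨h, hβ⟩ (by omega) j, fun β hβ => (L β hβ).grad,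
    fun k hk _ _ o => (L _ o.2).hs h hk (t _ o.2 k hk), bd_cy h j⟩, lift_cy h j⟩⟩

end Crest.Agent.X212.Cyt76
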