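import Crest.Agent.X212.Cyt76.Cyl

/-!
# Row 212, CYC-T (helper76): smooth families of fields on the cylinder, the bootstrap
-/

set_option autoImplicit false
set_option linter.unusedSectionVars false
set_option maxSynthPendingDepth 3
noncomputable section
open scoped Manifold ContDiff Topology InnerProductSpace
open MeasureTheory Set Function Filter

namespace Crest.Agent.X212.Cyt76
open An Sob92 Wz78 Cyc79 Cyf70 Dgr80
open Nd18 (ca)
open Wrd81 (wd)

variable {E : Type} [NormedAddCommGroup E] [NormedSpace ℝ E] [FiniteDimensional ℝ E]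
  [MeasurableSpace E] [BorelSpace E]
  {HM : Type} [TopologicalSpace HM] {I : ModelWithCorners ℝ E HM} [I.Boundaryless]
  {Y : Type} [TopologicalSpace Y] [ChartedSpace HM Y] [IsManifold I ∞ Y] [T2Space Y]
  [MeasurableSpace Y] [BorelSpace Y] [SecondCountableTopology Y] [CompactSpace Y]
  {ι : Type} [Fintype ι]
  {X P : Type} [NormedAddCommGroup X] [NormedSpace ℝ X] (pt : P → X)
  {κ : Type} [Fintype κ] [DecidableEq κ]
  {K : Type} [NormedAddCommGroup K] [InnerProductSpace ℝ K] [CompleteSpace K]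
  (F : Fr I Y ι) (j : ℕ) (A : P → ι → Y → En κ)

/-- families of multipliers on `Y` -/
def Mf (T : P → Y → En κ) : Prop := AY pt F j fun y x => hsL (T y x)

/-- standing hypotheses -/
structure St : Prop where
  dr : DenseRange pt
  hj : 8 ≤ j
  okY : ∀ y, Ok F (A y)
  okZ : ∀ y, Ok (cyl F) (ca (A y))
  tY : ∃ C, F.Tame C
  tZ : ∃ C, (cyl F).Tame C
  mf : ∀ c, Mf pt F j fun y => A y c

variable (P Y κ K) in
/-- families of fields -/
abbrev Fa : Type := P → Y × ℝ → Fm κ K

/-- fields of smoothing operators -/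
def Q (a : Fa Y P κ K) : Prop := ∀ y, ∃ S, FI (cyl F) S (a y)

/-- the time derivative -/
abbrev Dt (a : Fa Y P κ K) : Fa Y P κ K := fun y => (cyl F).D none (a y)

/-- the resolvent equation -/
def Rs (s u : Fa Y P κ K) : Prop := ∀ y, (cyl F).IsRes (aA K (ca (A y))) (s y) (u y)

/-- a calculus of families -/
structure Cal (L : ℕ) (C : ℕ → Fa Y P κ K → Prop) : Prop where
  q : ∀ {l a}, C l a → Q F a
  zero : ∀ l, C l fun _ _ => 0
  add : ∀ {l a b}, C l a → C l b → C l fun y x => a y x + b y x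
  low : ∀ {l l' a}, l' ≤ l → C l a → C l' a
  D : ∀ {l a} c, C (l + 1) a → C l fun y => (cyl F).D (some c) (a y)
  op : ∀ {l a T}, l ≤ L → Mf pt F j T → C l a → C l fun y x => amp K (T y x.1) (a y x)

/-- closed under the time derivative and the resolvent -/
structure CalZ (C : ℕ → Fa Y P κ K → Prop) : Prop extends Cal pt F j 4 C where
  dn : ∀ {l a}, C (l + 1) a → C l (Dt F a)
  res : ∀ {l s u}, l ≤ 3 → Q F u → Rs F A s u → C l s → C (l + 2) u

/-- the `m`-th time derivative is in the class -/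
def it (C : ℕ → Fa Y P κ K → Prop) : ℕ → ℕ → Fa Y P κ K → Prop
  | 0 => C
  | m + 1 => fun l a => Q F a ∧ it C m l (Dt F a)

/-- all time derivatives are in the class -/
def All (C : ℕ → Fa Y P κ K → Prop) (l : ℕ) (a : Fa Y P κ K) : Prop := ∀ m, it F C m l a

/-- smooth operators on the cylinder -/
def C1 (l : ℕ) (a : Fa Y P κ K) : Prop := Q F a ∧ OP pt (cyl F) l a

/-- smooth sections on the slice -/
def C2 (l : ℕ) (a : Fa Y P κ K) : Prop := Q F a ∧ AY pt F l fun y p => a y (p, 0)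

variable {pt F j A} {L l : ℕ} {C : ℕ → Fa Y P κ K → Prop} {a b s u : Fa Y P κ K}
  {T : P → Y → En κ}

theorem Mf.sm (h : Mf pt F j T) (y : P) : Sm I (T y) := by
  simpa [Function.comp_def] using opL.contMDiff.comp (h.1 y)

theorem Mf.fixed {T : Y → En κ} (h : Sm I T) : Mf pt F j fun _ => T :=
  AY.fixed (hsL.contMDiff.comp h)

theorem Q.cb (h : Q F a) (y : P) : (cyl F).Cb (a y) := (h y).choose_spec.cb

theorem Q.sm (h : Q F a) (y : P) : Sm (IC I) (a y) := cb_sm (h.cb y)

theorem Q.D (h : Q F a) (c : Option ι) : Q F fun y => (cyl F).D c (a y) := fun y =>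
  fi_D (h y).choose_spec c

theorem Q.zero : Q F (fun _ _ => 0 : Fa Y P κ K) := fun _ => ⟨_, FI.zero⟩

theorem Q.add (h : Q F a) (k : Q F b) : Q F fun y x => a y x + b y x := fun y =>
  ⟨_, (h y).choose_spec.add (k y).choose_spec⟩

theorem Q.op (h : Q F a) (hT : Mf pt F j T) : Q F fun y x => amp K (T y x.1) (a y x) := fun y =>
  ⟨_, (h y).choose_spec.op (cbZ (hT.sm y))⟩

theorem Cal.it (h : Cal pt F j L C) (m : ℕ) : Cal pt F j L (it F C m) := by
  induction m with
  | zero => exact h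
  | succ m h =>
    refine ⟨And.left, fun l => ⟨.zero, ?_⟩, fun {l a b} ha hb => ⟨ha.1.add hb.1, ?_⟩,
      fun hl ha => ⟨ha.1, h.low hl ha.2⟩, fun {l a} c ha => ⟨ha.1.D _, ?_⟩,
      fun {l a T} hl hT ha => ⟨ha.1.op hT, ?_⟩⟩
    · exact cast (congrArg _ (funext fun _ => (D_none_fst F.toPre contMDiff_const).symm)) (h.zero l)
    · exact cast (congrArg _ (funext fun y => (Pre.D_add _ (ha.1.sm y) (hb.1.sm y) _).symm))
        (h.add ha.2 hb.2)
    · exact cast (congrArg _ (funext fun y => (Dn_D (ha.1.sm y) _).symm)) (h.D c ha.2)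
    · exact cast (congrArg _ (funext fun y =>
        (Dn_app ((amp K).contMDiff.comp (hT.sm y)) (ha.1.sm y)).symm)) (h.op hl hT ha.2)

theorem Cal.all (h : Cal pt F j L C) : Cal pt F j L (All F C) :=
  ⟨fun k => h.q (k 0), fun l m => (h.it m).zero l, fun a b m => (h.it m).add (a m) (b m),
    fun hl a m => (h.it m).low hl (a m), fun c a m => (h.it m).D c (a m),
    fun hl hT a m => (h.it m).op hl hT (a m)⟩

theorem All.dt (h : All F C l a) : All F C l (Dt F a) := fun m => (h (m + 1)).2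

theorem Rs.dt (h : St pt F j A) (hu : Q F u) (r : Rs F A s u) : Rs F A (Dt F s) (Dt F u) :=
  fun y => by
    have := r y
    rw [aA_ca] at this ⊢
    exact isRes_Dn (sm_aA (h.okY y).mc.sm) this (hu.cb y)

theorem CalZ.it (h : St pt F j A) (k : CalZ pt F j A C) (m : ℕ) : CalZ pt F j A (it F C m) := by
  induction m with
  | zero => exact k
  | succ m ih => exact ⟨k.toCal.it (m + 1), fun ha => ⟨ha.1.D _, ih.dn ha.2⟩,
      fun hl hu r hs => ⟨hu, ih.res hl (hu.D _) (r.dt h hu) hs.2⟩⟩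

namespace Cal
variable (h : Cal pt F j L C)
include h

theorem sum {J : Type} (t : Finset J) {a : J → Fa Y P κ K} (k : ∀ i, C l (a i)) :
    C l fun y x => ∑ i ∈ t, a i y x := by
  classical
  induction t using Finset.induction_on with
  | empty => simpa using h.zero l
  | insert i t hi ih => simpa only [Finset.sum_insert hi] using h.add (k i) ih

theorem smul (hl : l ≤ L) {f : Y → ℝ} (hf : Sm I f) (k : C l a) :
    C l fun y x => f x.1 • a y x := by
  simpa only [amp_smul_one, ContinuousLinearMap.smul_apply, ContinuousLinearMap.one_apply] using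
    h.op hl (Mf.fixed (T := fun x => f x • 1) (hf.smul contMDiff_const)) k

theorem cm (hA : St pt F j A) (hl : l ≤ L) {χ : Y → ℝ} (hχ : Sm I χ) (k : C (l + 1) a) :
    C l fun y => (cyl F).op (cmS (cyl F) _ fun x => χ x.1)
      (cmB (cyl F) (aA K (ca (A y))) fun x => χ x.1) (a y) := by
  have k' := h.low (Nat.le_succ l) k
  have d := fun c => F.sm_D hχ c
  refine cast (congrArg _ (funext₂ fun y x => ?_)) (h.sum Finset.univ fun c =>
    h.add (h.smul hl (f := fun x => -2 * F.D c χ x) (contMDiff_const.mul (d c))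
      (h.add (h.D c k) (h.op hl (hA.mf c) k')))
      (h.smul hl (f := fun x => -(F.D c (F.D c χ) x + F.dv c x * F.D c χ x))
        ((F.sm_D (d c) c).add ((F.dv_sm c).mul (d c))).neg k'))
  have e0 : (cyl F).D none (fun x => χ x.1) = fun _ => 0 := D_none_fst F.toPre hχ
  have e1 : ∀ {g : Y → ℝ}, Sm I g → ∀ c, (cyl F).D (some c) (fun x => g x.1) = fun x => F.D c g x.1 :=
    fun hg c => D_some_fst F.toPre hg c
  have e2 : (cyl F).D none (fun _ => (0 : ℝ)) = fun _ => 0 := D_none_fst F.toPre contMDiff_const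
  simp only [Pre.op, cmS, cmB, Fintype.sum_option, e0, e1 hχ, e1 (d _), e2, mul_zero, zero_smul,
    add_zero, zero_add, zero_apply, sum_apply, neg_zero, add_apply, neg_apply, smul_apply,
    ContinuousLinearMap.id_apply, ← Finset.sum_add_distrib, smul_add, neg_smul, sub_eq_add_neg,
    add_assoc]
  rfl

end Cal

namespace St
variable (h : St pt F j A)
include h

theorem supY : Sup F.toPre (h.tY.choose 0) := Sup.of_tame h.tY.choose_spec

theorem muY (hT : Mf pt F j T) (hl : l ≤ j) : MuF pt F l T := by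
  simpa only [opL_hsL] using AY.mu h.supY opL (by have := h.hj; omega) hl hT

theorem muZ (hT : Mf pt F j T) (hl : l ≤ 4) : MuF pt (cyl F) l fun y x => T y x.1 := by
  simpa only [opL_hsL] using AY.muZ h.supY opL (by have := h.hj; omega) hT

theorem muA (hl : l ≤ 4) (c : Option ι) : MuF pt (cyl F) l fun y => ca (A y) c := by
  cases c
  exacts [MuF.fixed (Cb_const _), h.muZ (h.mf _) hl]

theorem c1 : CalZ pt F j A (C1 (K := K) pt F) where
  q := And.left
  zero _ := ⟨.zero, .zero⟩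
  add a b := ⟨a.1.add b.1, a.2.add b.2⟩
  low hl a := ⟨a.1, a.2.tr (tr_low a.1.sm hl)⟩
  D c a := ⟨a.1.D _, a.2.tr (tr_D a.1.sm _)⟩
  op hl hT a := ⟨a.1.op hT, a.2.tr (tr_op a.1.sm (h.muZ hT hl))⟩
  dn a := ⟨a.1.D _, a.2.tr (tr_D a.1.sm _)⟩
  res hl hu r s := ⟨hu, s.2.tr (tr_res h.dr h.tZ.choose_spec h.okZ (h.muA (by omega))
    (h.muA (by omega)) r fun y k => ⟨_, (s.1 y).choose_spec.lv k, (s.1 y).choose_spec.is k⟩)⟩

omit h in
theorem c2 (h : St pt F j A) : Cal pt F j j (C2 (κ := κ) (K := K) pt F) where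
  q := And.left
  zero _ := ⟨.zero, .zero⟩
  add a b := ⟨a.1.add b.1, a.2.add b.2⟩
  low hl a := ⟨a.1, a.2.tr (tr_low a.2.1 hl)⟩
  D c a := ⟨a.1.D _, (a.2.tr (tr_D a.2.1 c)).congr fun y x => D_some F.toPre (a.1.sm y) c (x, 0)⟩
  op hl hT a := ⟨a.1.op hT, a.2.tr (tr_op a.2.1 (h.muY hT hl))⟩

theorem slice (k : All F (C1 pt F) 4 a) : All F (C2 pt F) 0 a := fun m => by
  replace k := k m
  induction m generalizing a with
  | zero => exact ⟨k.1, k.2.slice (Sup.of_tame h.tZ.choose_spec) k.1.sm⟩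
  | succ m ih => exact ⟨k.1, ih k.2⟩

/-- **the bootstrap** -/
theorem boot (hl : l + 1 ≤ j) (r : Rs F A s u) (hs : All F (C2 pt F) l s)
    (hu : All F (C2 pt F) l u) : All F (C2 pt F) (l + 2) u := fun m => by
  induction m generalizing s u with
  | succ m ih => exact ⟨(hu 0).1, ih (r.dt h (hu 0).1) hs.dt hu.dt⟩
  | zero =>
    have k := (hs 0).2.add (hu.dt.dt 0).2
    refine ⟨(hu 0).1, k.tr (tr_res h.dr h.tY.choose_spec h.okY (fun c => h.muY (h.mf c) (by omega))
      (fun c => h.muY (h.mf c) hl) (fun y => ?_) fun y v =>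
        ⟨_, lv_toH ⟨_, mem_triv (sm_ct (k.1 y) v) (.of_compactSpace _)⟩, Is.toH _⟩)⟩
    have := r y
    rw [aA_ca] at this
    exact isRes_slice (sm_aA (h.okY y).mc.sm) this

theorem a1 : CalZ pt F j A (All F (C1 (K := K) pt F)) :=
  ⟨h.c1.toCal.all, fun a m => (h.c1.it h m).dn (a m), fun hl hu r s m =>
    (h.c1.it h m).res hl hu r (s m)⟩

theorem a2 : Cal pt F j j (All F (C2 (κ := κ) (K := K) pt F)) := h.c2.all

end St

/-! ### base fields -/

section base
variable {p : Y → En κ} {φ f' : Y → ℝ}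

variable (F A p φ f') in
/-- the base fields of all cut-off functions are in the class -/
def BF (C : Fa Y P κ (KK (cyl F).toPre κ) → Prop) : Prop := ∀ (χ : Y → ℝ) (t : ℝ), Sm I χ → 0 < t →
  (∀ x, φ x < t → χ x = 0) →
    C fun y => bs (cyl F) (ca (A y)) (fun x => p x.1) (fun x => χ x.1) fun x => f' x.1

variable (h : St pt F j A) (hp : Sm I p) (hφ : Sm I φ) (hf : Sm I f')
  (h0 : ∀ x, f' x ≠ 0 → φ x ≤ 0) {C : ℕ → Fa Y P κ (KK (cyl F).toPre κ) → Prop}
include hφ hf h0

theorem sepZ {χ : Y → ℝ} {t : ℝ} (hχ : Sm I χ) (ht : 0 < t) (h1 : ∀ x, φ x < t → χ x = 0) :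
    Sep (cyl F).toPre (fun x => χ x.1) fun x => f' x.1 :=
  sep_cut (φ := fun x => φ x.1) (cbZ hf) (cbZ hφ) (fun x => h0 x.1) (cbZ hχ) ht fun x => h1 x.1

include h hp

theorem bf_q : BF F A p φ f' (Q F) := fun _ _ hχ ht h1 y =>
  ⟨_, fi_bs (h.okZ y) (sepZ hφ hf h0 hχ ht h1) (cbZ hp)⟩

theorem BF.step (hC : Cal pt F j L C) (hl : l ≤ L) (k : BF F A p φ f' (C (l + 1))) :
    BF F A p φ f' fun u => ∃ s, C l s ∧ Rs F A s u := fun χ t hχ ht h1 => by
  obtain ⟨χ', c1, c2, c3, -⟩ := exists_cut (F := F.toPre) (Cb_of_compact hφ)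
    (show t / 4 < t / 2 by linarith)
  have t4 : 0 < t / 4 := by linarith
  exact ⟨_, hC.cm h hl hχ (k χ' _ (cb_sm c1) t4 fun x hx => c2 x hx.le), fun y =>
    bs_res (φ := fun x => φ x.1) (h.okZ y) (cbZ hp) (sepZ hφ hf h0 hχ ht h1)
      (sepZ hφ hf h0 (cb_sm c1) t4 fun x hx => c2 x hx.le) (hφ.continuous.comp continuous_fst)
      (show t / 2 < t by linarith) (fun x => h1 x.1) fun x hx => c3 _ hx.le⟩

theorem BF.up (hC : CalZ pt F j A C) (hl : l ≤ 3) (k : BF F A p φ f' (C (l + 1))) :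
    BF F A p φ f' (C (l + 2)) := fun χ t hχ ht h1 =>
  let ⟨_, s1, s2⟩ := k.step h hp hφ hf h0 hC.toCal (by omega) χ t hχ ht h1
  hC.res hl (bf_q h hp hφ hf h0 χ t hχ ht h1) s2 s1

theorem bf_two : BF F A p φ f' (C1 pt F 2) := fun χ t hχ ht h1 => by
  obtain ⟨R, r1, r2⟩ := exists_R h.dr h.tZ.choose_spec h.okZ (h.muA (l := 0) (by omega))
    (h.muA (by omega))
  refine ⟨bf_q h hp hφ hf h0 χ t hχ ht h1, fun v => smulH _ 2 _ (fun x => χ x.1) ∘L R v ∘L
    smulH _ 0 _ (fun x => f' x.1) ∘L mO _ fun x => p x.1,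
    contDiff_const.clm_comp (r1.clm_comp contDiff_const), fun y k => Is.of_incl (Nat.zero_le 2) ?_⟩
  rw [ContinuousLinearMap.comp_apply, Rep_incl (rep_smulH (cbZ hχ)) (rep_smulH (cbZ hχ))
    (Nat.zero_le _) (Nat.zero_le _), r2]
  exact (fi_bs (h.okZ y) (sepZ hφ hf h0 hχ ht h1) (cbZ hp)).is k

theorem bf_five : BF F A p φ f' (All F (C1 pt F) 5) := by
  have u := fun m l hl => BF.up (l := l) h hp hφ hf h0 (h.c1.it h m) hl
  have k : ∀ m, BF F A p φ f' (it F (C1 pt F) m 2) := fun m => by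
    induction m with
    | zero => exact bf_two h hp hφ hf h0
    | succ m ih => exact fun χ t hχ ht h1 => ⟨bf_q h hp hφ hf h0 χ t hχ ht h1,
        (h.c1.it h m).dn (u m 1 (by omega) ih χ t hχ ht h1)⟩
  exact fun χ t hχ ht h1 m =>
    u m 3 le_rfl (u m 2 (by omega) (u m 1 (by omega) (k m))) χ t hχ ht h1

theorem bf_top (hl : l ≤ j) : BF F A p φ f' (All F (C2 pt F) (l + 1)) := by
  have := h.hj
  have k5 := bf_five h hp hφ hf h0
  induction l with
  | zero =>
    intro χ t hχ ht h1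
    obtain ⟨s, s1, s2⟩ := k5.step h hp hφ hf h0 h.a1.toCal le_rfl χ t hχ ht h1
    exact h.a2.low (by omega) (h.boot (l := 0) (by omega) s2 (h.slice s1)
      (h.slice (h.a1.low (by omega) (k5 χ t hχ ht h1))))
  | succ l ih =>
    intro χ t hχ ht h1
    obtain ⟨s, s1, s2⟩ := (ih (by omega)).step h hp hφ hf h0 h.a2 (by omega) χ t hχ ht h1
    exact h.boot hl s2 s1 (h.a2.low (by omega) (ih (by omega) χ t hχ ht h1))

end base

/-! ### words -/

variable (pt F j) in
/-- the class of words -/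
structure WC (a : Fa Y P κ K) : Prop where
  z : All F (C1 pt F) 4 a
  y : All F (C2 pt F) j a

variable (I) in
/-- `t`-independent letters -/
def LZ : La (Y × ℝ) → Prop
  | .mul g => ∃ f, Sm I f ∧ g = fun x => f x.1
  | .G => True

theorem WC.ay (k : WC pt F j a) : AY pt F j fun y p => a y (p, 0) := (k.y 0).2

theorem wc_bs (h : St pt F j A) {p : Y → En κ} (hp : Sm I p) {f f' : Y → ℝ} (hs : Sep F.toPre f f') :
    WC pt F j fun y => bs (cyl F) (ca (A y)) (fun x => p x.1) (fun x => f x.1) fun x => f' x.1 := by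
  obtain ⟨h1, h2, φ, h3, h4, h5⟩ := hs
  have e : ∀ x, φ x < 1 → f x = 0 := fun x hx => by_contra fun e => (h4 x e).not_gt hx
  exact ⟨h.a1.low (by omega) (bf_five h hp (cb_sm h3) (cb_sm h2) h5 f 1 (cb_sm h1) one_pos e),
    h.a2.low (by omega) (bf_top h hp (cb_sm h3) (cb_sm h2) h5 le_rfl f 1 (cb_sm h1) one_pos e)⟩

section bil
variable {U V W : Type} [NormedAddCommGroup U] [InnerProductSpace ℝ U] [CompleteSpace U]
  [NormedAddCommGroup V] [InnerProductSpace ℝ V] [CompleteSpace V]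
  [NormedAddCommGroup W] [InnerProductSpace ℝ W] [CompleteSpace W]

theorem AY.bil {S : ℝ} (hS : Sup F.toPre S) (β : U →L[ℝ] V →L[ℝ] W) (hj : 7 ≤ j) {a : P → Y → U}
    {b : P → Y → V} (h : AY pt F j a) (k : AY pt F j b) : AY pt F j fun y x => β (a y x) (b y x) :=
  let ⟨h1, _, h2, h3⟩ := h
  let ⟨k1, _, k2, k3⟩ := k
  ⟨fun y => (β.contMDiff.comp (h1 y)).clm_apply (k1 y), _,
    ((F.bilH j j _ _ _ j fun _ => β).contDiff.comp h2).clm_apply k2,
    fun y => Is.bilH hS (Lev.self hj) (Cb_const β) (Maps₂.triv _) (h3 y) (k3 y)⟩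

theorem AY.sub {a b : P → Y → V} (h : AY pt F l a) (k : AY pt F l b) :
    AY pt F l fun y x => a y x - b y x :=
  (h.add (k.clm (Cb_const (-ContinuousLinearMap.id ℝ V)))).congr fun _ _ => sub_eq_add_neg _ _

end bil

namespace WC
variable (h : St pt F j A)
include h

theorem op (hT : Mf pt F j T) (k : WC pt F j a) : WC pt F j fun y x => amp K (T y x.1) (a y x) :=
  ⟨h.a1.op le_rfl hT k.z, h.a2.op le_rfl hT k.y⟩

theorem res (k : WC pt F j a) : WC pt F j (fun y => (cyl F).res (aA K (ca (A y))) (a y)) ∧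
    All F (C2 pt F) (j + 1) fun y => (cyl F).res (aA K (ca (A y))) (a y) := by
  have := h.hj
  have r := fun y => ((k.z 0).1 y).choose_spec.res (h.okZ y)
  have h1 := h.a1.res (l := 2) (by omega) (fun y => ⟨_, (r y).2⟩) (fun y => (r y).1)
    (h.a1.low (by omega) k.z)
  have h2 : ∀ l ≤ j, All F (C2 pt F) (l + 1) fun y => (cyl F).res (aA K (ca (A y))) (a y) := by
    intro l hl
    induction l with
    | zero =>
      exact h.a2.low (by omega) (h.boot (l := 0) (by omega) (fun y => (r y).1)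
        (h.a2.low (by omega) k.y) (h.slice h1))
    | succ l ih =>
      exact h.boot hl (fun y => (r y).1) (h.a2.low (by omega) k.y)
        (h.a2.low (by omega) (ih (by omega)))
  exact ⟨⟨h1, h.a2.low (by omega) (h2 j le_rfl)⟩, h2 j le_rfl⟩

theorem sl {t : La (Y × ℝ)} (ht : LZ I t) (k : WC pt F j a) :
    WC pt F j fun y => sl (cyl F) (aA K (ca (A y))) (laV _ t) (a y) := by
  rcases t with g | _
  · obtain ⟨f, hf, rfl⟩ := ht
    exact ⟨h.a1.smul le_rfl hf k.z, h.a2.smul le_rfl hf k.y⟩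
  · exact (k.res h).1

theorem wd {w : List (La (Y × ℝ))} (hw : ∀ t ∈ w, LZ I t) (k : WC pt F j a) :
    WC pt F j fun y => wd (Dgr80.sl (cyl F) (aA K (ca (A y)))) (a y) (w.map (laV _)) := by
  induction w with
  | nil => exact k
  | cons t w ih => exact (ih fun s hs => hw s (by simp [hs])).sl h (hw t (by simp))

theorem bk {w : List (La (Y × ℝ))} (hw : ∀ t ∈ w, LZ I t) (k : WC pt F j a) :
    WC pt F j fun y => bk (cyl F) (aA K (ca (A y))) (w.map (laV _)) (a y) := by
  simp only [bk_laV]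
  exact k.wd h fun t ht => hw t (List.mem_reverse.1 ht)

theorem nab (k : All F (C2 pt F) (j + 1) a) (c : ι) : AY pt F j fun y p =>
    nab (IC I) (cyl F).e (aA K (ca (A y))) (some c) (a y) (p, 0) :=
  (h.a2.add (h.a2.D c k) (h.a2.op le_rfl (h.mf c) (h.a2.low (Nat.le_succ j) k)) 0).2

theorem gc {U : Type} [NormedAddCommGroup U] [InnerProductSpace ℝ U] [CompleteSpace U]
    (r : CL U (CL (Fm κ K) (Fm κ K))) {w : List (La (Y × ℝ))} (hw : ∀ t ∈ w, LZ I t)
    (k : WC pt F j a) (k' : WC pt F j b) (c : ι) : AY pt F j fun y p =>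
      gc (cyl F) (aA K (ca (A y))) r (a y) (w.map (laV _)) (b y) (p, 0) (some c) := by
  have := h.hj
  induction w generalizing b with
  | nil => exact AY.zero
  | cons t w ih =>
    have hw' : ∀ s ∈ w, LZ I s := fun s hs => hw s (by simp [hs])
    rcases t with g | _
    · have := ih hw' (k'.sl h (hw (.mul g) (by simp)))
      simp only [← slT_laV] at this
      exact this
    · obtain ⟨a1, a2⟩ := (k.wd h hw').res h
      obtain ⟨b1, b2⟩ := k'.res h
      exact (ih hw' b1).sub ((a1.ay.bil h.supY (tpL r) (by omega) (nab h b2 c)).add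
        (b1.ay.bil h.supY (tpL r) (by omega) (nab h a2 c)))

end WC

end Crest.Agent.X212.Cyt76
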