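import Crest.Agent.X212.Cyt76.Res
import Crest.Agent.X212.Cht98.Cov
import Crest.Agent.X212.Spn45.Lift

/-!
# Row 212, CYC-T (helper76): the cylinder: multipliers, slices, the time derivative
-/

set_option autoImplicit false
set_option linter.unusedSectionVars false
set_option maxSynthPendingDepth 3
noncomputable section
open scoped Manifold ContDiff Topology InnerProductSpace
open MeasureTheory Set Function Filter

namespace Crest.Agent.X212.Cyt76
open An Sob92 Wz78 Cyc79 Ten12 Cyf70
open Mon62 (HT ic)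
open Nd18 (ca)

variable {E : Type} [NormedAddCommGroup E] [NormedSpace ℝ E] [FiniteDimensional ℝ E]
  [MeasurableSpace E] [BorelSpace E]
  {HM : Type} [TopologicalSpace HM] {I : ModelWithCorners ℝ E HM} [I.Boundaryless]
  {Y : Type} [TopologicalSpace Y] [ChartedSpace HM Y] [IsManifold I ∞ Y] [T2Space Y]
  [MeasurableSpace Y] [BorelSpace Y] [SecondCountableTopology Y] [CompactSpace Y]
  {ι : Type} [Fintype ι]
  {X P : Type} [NormedAddCommGroup X] [NormedSpace ℝ X] {pt : P → X}
  {U V W : Type} [NormedAddCommGroup U] [InnerProductSpace ℝ U] [CompleteSpace U]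
  [NormedAddCommGroup V] [InnerProductSpace ℝ V] [CompleteSpace V]
  [NormedAddCommGroup W] [InnerProductSpace ℝ W] [CompleteSpace W]
  {κ : Type} [Fintype κ] [DecidableEq κ]
  {K : Type} [NormedAddCommGroup K] [InnerProductSpace ℝ K] [CompleteSpace K]
  {F : Fr I Y ι} {l j : ℕ} {S : ℝ}

theorem cbZ {N : Type} [NormedAddCommGroup N] [NormedSpace ℝ N] {f : Y → N} (h : Sm I f) :
    (cyl F).Cb fun x => f x.1 := Cht98.Cb_fst _ (Cb_of_compact h)

/-- sections on `Y` are multipliers on the cylinder -/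
theorem AY.muZ (hS : Sup F.toPre S) (β : U →L[ℝ] V →L[ℝ] W) (hl : l + 4 ≤ j) {α : P → Y → U}
    (h : AY pt F j α) : MuF pt (cyl F) l fun y x => β (α y x.1) := by
  obtain ⟨h1, δ, h2, h3⟩ := h
  have c : ∀ {u : Y → U}, Sm I u → (cyl F).Cb fun x => β (u x.1) := fun hu =>
    cbZ (β.contMDiff.comp hu)
  obtain ⟨T, hT, -⟩ := F.exists_ext (k := j) (p := triv Y U)
    (X := HT (cyl F).toPre V l →L[ℝ] HT (cyl F).toPre W l)
    { toFun := fun u => (cyl F).mulH l _ _ fun x => β (u.1 x.1)
      map_add' := fun u v => by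
        rw [← mulH_add (c u.2.1) (Maps.triv _) (c v.2.1) (Maps.triv _)]
        exact congrArg _ (funext fun x => map_add β _ _)
      map_smul' := fun r u => by
        rw [RingHom.id_apply, ← mulH_smul r (c u.2.1) (Maps.triv _)]
        exact congrArg _ (funext fun x => map_smul β _ _) }
    (C := cK (Option ι) l * (‖β‖ * √|S|)) (mul_nonneg (cK_nonneg _) (by positivity)) fun u => by
      have k := CB_val hS l hl (F.toH j _ u)
      rw [val_toH hS (by omega), Pre.norm_toH] at k
      refine (norm_mulH_le (cb_sm (c u.2.1)) (Cht98.CB_fst _ l (β.contMDiff.comp u.2.1)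
        (CB_clm β u.2.1 k)) (Maps.triv _)).trans_eq ?_
      rw [abs_abs, abs_of_nonneg (by unfold Pre.nrm; positivity)]
      ring
  exact ⟨fun y => c (h1 y), _, T.contDiff.comp h2, fun y => by
    rw [comp_apply, AY.eq_toH (h1 y) (h3 y), hT]; rfl⟩

/-- restriction to the slice -/
theorem exists_ρ (hS : Sup (cyl F).toPre S) :
    ∃ ρ : HT (cyl F).toPre V 4 →L[ℝ] HT F.toPre V 0,
      ∀ u, Is F.toPre 0 _ (ρ u) fun y => (cyl F).val 4 _ u (y, 0) := by
  have c : ∀ u : HT (cyl F).toPre V 4, Continuous fun y => (cyl F).val 4 _ u (y, 0) := fun u =>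
    (continuous_val hS le_rfl u).comp (continuous_id.prodMk continuous_const)
  choose r hr using fun u => exists_Is_zero (F := F.toPre) (p := triv Y V) (Cb_const _)
    (fun _ _ => rfl) ((c u).memLp_of_hasCompactSupport (.of_compactSpace _)) (.of_forall fun _ => rfl)
  refine ⟨LinearMap.mkContinuous ⟨⟨r, fun u v => (hr _).unique ?_⟩, fun a u => (hr _).unique ?_⟩
    (√(F.μ.real univ) * √|S|) fun u => ?_, hr⟩
  · rw [val_add]; exact (hr u).add (hr v)
  · rw [val_smul]; exact (hr u).smul a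
  · refine (pow_le_pow_iff_left₀ (norm_nonneg _) (by positivity) two_ne_zero).1 ?_
    rw [LinearMap.coe_mk, AddHom.coe_mk, sq_of_is (hr u), mul_assoc, mul_pow,
      Real.sq_sqrt measureReal_nonneg, ← smul_eq_mul, ← integral_const]
    exact integral_mono_of_nonneg (.of_forall fun _ => sq_nonneg _) (integrable_const _)
      (.of_forall fun y => pow_le_pow_left₀ (norm_nonneg _) (norm_val_le hS le_rfl u _) 2)

/-- **fields of operators on the slice** -/
theorem OP.slice (hS : Sup (cyl F).toPre S) {a : P → Y × ℝ → Fm κ K} (ha : ∀ y, Sm (IC I) (a y))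
    (h : OP pt (cyl F) 4 a) : AY pt F 0 fun y p => a y (p, 0) := by
  obtain ⟨ρ, hρ⟩ := exists_ρ (V := Eu κ) hS
  choose e he hn using fun T : K →L[ℝ] HT (cyl F).toPre (Eu κ) 4 => exists_of_ker (ρ ∘L T)
    (α := fun p => evF _ 4 (p, 0) T) (fun h => by simp only [ct_evF]; exact hρ (T h))
    (integrable_const ((√(Fintype.card κ) * √|S| * ‖T‖) ^ 2)) (.of_forall fun p =>
      pow_le_pow_left₀ (norm_nonneg _) (norm_evF_le hS le_rfl T _) 2)
  obtain ⟨T, h2, h3⟩ := h
  let L : (K →L[ℝ] HT (cyl F).toPre (Eu κ) 4) →L[ℝ] HT F.toPre (Fm κ K) 0 := LinearMap.mkContinuous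
    ⟨⟨e, fun _ _ => ext_ctH fun _ => by simp only [map_add, he, ContinuousLinearMap.comp_apply,
        ContinuousLinearMap.add_apply]⟩,
      fun _ _ => ext_ctH fun _ => by simp only [map_smul, he, ContinuousLinearMap.comp_apply,
        ContinuousLinearMap.smul_apply, RingHom.id_apply]⟩
    (√(F.μ.real univ) * (√(Fintype.card κ) * √|S|)) fun T => (hn T).trans_eq (by
      rw [integral_const, smul_eq_mul, Real.sqrt_mul measureReal_nonneg, Real.sqrt_sq (by positivity)]
      ring)
  refine ⟨fun y => sm_slice_fst (ha y) 0, _, L.contDiff.comp h2, fun y => is_of_ctH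
    (sm_slice_fst (ha y) 0).continuous.aestronglyMeasurable fun h => ?_⟩
  have := hρ (T (pt y) h)
  rw [(h3 y h).val_eq hS le_rfl (sm_ct (ha y) h).continuous] at this
  exact (he _ h).symm ▸ this

/-! ### the time derivative -/

section time
variable {N N' : Type} [NormedAddCommGroup N] [NormedSpace ℝ N] [NormedAddCommGroup N']
  [NormedSpace ℝ N'] {A : ι → Y → CL V V} {s u : Y × ℝ → V}

theorem Dn_app {T : Y → N →L[ℝ] N'} (hT : Sm I T) {u : Y × ℝ → N} (hu : Sm (IC I) u) :
    (cyl F).D none (fun x => T x.1 (u x)) = fun x => T x.1 ((cyl F).D none u x) := funext fun x => by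
  refine (dv_app ((sm_fst hT).mdifferentiableAt (by simp)) (hu.mdifferentiableAt (by simp))).trans ?_
  rw [show dv (IC I) ((cyl F).e none) (fun x => T x.1) x = 0 from congrFun (D_none_fst F.toPre hT) x,
    ContinuousLinearMap.zero_apply, zero_add]
  rfl

theorem Dn_D {u : Y × ℝ → N} (hu : Sm (IC I) u) (c : Option ι) :
    (cyl F).D none ((cyl F).D c u) = (cyl F).D c ((cyl F).D none u) := by
  cases c
  exacts [rfl, D_comm F.toPre hu _]

/-- the coefficients on `Y` -/
def oa (A : ι → Y → N) : Option ι → Y → N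
  | none => fun _ => 0
  | some a => A a

theorem ca_eq (A : ι → Y → N) (c : Option ι) : ca A c = fun x => oa A c x.1 := by cases c <;> rfl

theorem sm_oa {A : ι → Y → N} (h : ∀ a, Sm I (A a)) (c : Option ι) : Sm I (oa A c) := by
  cases c
  exacts [contMDiff_const, h _]

theorem aA_ca (A : ι → Y → En κ) : aA K (ca A) = ca (aA K A) := funext₂ fun c x => by
  cases c
  exacts [map_zero _, rfl]

theorem Dn_nab (hA : ∀ a, Sm I (A a)) (hu : Sm (IC I) u) (c : Option ι) :
    (cyl F).D none (nab (IC I) (cyl F).e (ca A) c u) =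
      nab (IC I) (cyl F).e (ca A) c ((cyl F).D none u) := by
  have e : ∀ u, nab (IC I) (cyl F).e (ca A) c u = (cyl F).D c u + fun x => oa A c x.1 (u x) :=
    fun u => by cases c <;> rfl
  rw [e, e, Pre.D_add _ ((cyl F).sm_D hu c) ((sm_fst (sm_oa hA c)).clm_apply hu), Dn_D hu,
    Dn_app (sm_oa hA c) hu]

theorem nab_slice (hu : Sm (IC I) u) (a : ι) (t : ℝ) (p : Y) :
    nab (IC I) (cyl F).e (ca A) (some a) u (p, t) = nab I F.e A a (fun p => u (p, t)) p :=
  congrArg (· + _) (D_some F.toPre hu a (p, t))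

theorem nab_none (u : Y × ℝ → V) : nab (IC I) (cyl F).e (ca A) none u = (cyl F).D none u :=
  funext fun _ => add_zero _

theorem lap_slice (hA : ∀ a, Sm I (A a)) (hu : Sm (IC I) u) (t : ℝ) (p : Y) :
    lap (IC I) (cyl F).e (cyl F).dv (ca A) u (p, t) =
      lap I F.e F.dv A (fun p => u (p, t)) p - (cyl F).D none ((cyl F).D none u) (p, t) := by
  have h := fun a => sm_nab (F := cyl F) (Spn45.sm_ca hA) (some a) hu
  simp only [lap, Fintype.sum_option, nab_none, fun a => nab_slice (F := F) (A := A) (h a) a,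
    nab_slice hu]
  rw [show (cyl F).dv none (p, t) = 0 from rfl, zero_smul, add_zero, neg_add, add_comm,
    sub_eq_add_neg]
  rfl

theorem Dn_lap (hA : ∀ a, Sm I (A a)) (hu : Sm (IC I) u) :
    (cyl F).D none (lap (IC I) (cyl F).e (cyl F).dv (ca A) u) =
      lap (IC I) (cyl F).e (cyl F).dv (ca A) ((cyl F).D none u) := funext fun x => by
  have h := fun {u : Y × ℝ → V} (hu : Sm (IC I) u) c => sm_nab (F := cyl F) (Spn45.sm_ca hA) c hu
  have d := fun c => (ContinuousLinearMap.lsmul ℝ ℝ (E := V)).contMDiff.comp (sm_oa F.dv_sm c)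
  have e : ∀ c, (cyl F).dv c = fun x => oa F.dv c x.1 := fun c => by cases c <;> rfl
  refine (dv_neg _ x).trans (congrArg _ ((dv_sum' _ fun c => ((h (h hu c) c).add
    (((cyl F).dv_sm c).smul (h hu c))) x).trans (Finset.sum_congr rfl fun c _ => ?_)))
  refine (dv_add' (h (h hu c) c x) ((((cyl F).dv_sm c).smul (h hu c)) x)).trans ?_
  rw [← Dn_nab hA hu, ← Dn_nab hA (h hu c)]
  rw [e]
  exact congrArg _ (congrFun (Dn_app (F := F) (d c) (h hu c)) x)

theorem isRes_Dn (hA : ∀ a, Sm I (A a)) (h : (cyl F).IsRes (ca A) s u) (hu : (cyl F).Cb u) :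
    (cyl F).IsRes (ca A) ((cyl F).D none s) ((cyl F).D none u) :=
  ⟨(cyl F).sm_D h.1 none, cb_bdd (Cb_D hu none), fun x => by
    rw [← Dn_lap hA h.1, ← funext h.2.2]
    exact (dv_add' (h.1 x) (sm_lap (F := cyl F) (Spn45.sm_ca hA) h.1 x)).symm⟩

theorem isRes_slice (hA : ∀ a, Sm I (A a)) (h : (cyl F).IsRes (ca A) s u) :
    F.IsRes A (fun p => s (p, 0) + (cyl F).D none ((cyl F).D none u) (p, 0)) fun p => u (p, 0) :=
  ⟨sm_slice_fst h.1 0, h.2.1.imp fun _ k _ => k _, fun p => by
    beta_reduce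
    rw [← h.2.2 (p, 0), lap_slice hA h.1]; abel⟩

end time

end Crest.Agent.X212.Cyt76
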