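import Crest.Agent.X212.Ten12.Lft
import Crest.Agent.X212.Mon62.Hyp
import Crest.Agent.X212.Cyc79.Cf

/-!
# Row 212, CYC-T (helper76): families of sections and of operators over a Banach model
-/

set_option autoImplicit false
set_option linter.unusedSectionVars false
set_option maxSynthPendingDepth 3
noncomputable section
open scoped Manifold ContDiff Topology InnerProductSpace
open MeasureTheory Set Function Filter

namespace Crest.Agent.X212.Cyt76
open An Sob92 Wz78 Cyc79 Ten12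
open Mon62 (HT ic Mu QQ Adm)
open Wrd81 (GH QH)

variable {E : Type} [NormedAddCommGroup E] [NormedSpace ℝ E] [FiniteDimensional ℝ E]
  [MeasurableSpace E] [BorelSpace E]
  {HM : Type} [TopologicalSpace HM] {I : ModelWithCorners ℝ E HM} [I.Boundaryless]
  {M : Type} [TopologicalSpace M] [ChartedSpace HM M] [IsManifold I ∞ M]
  [MeasurableSpace M] [T2Space M] [BorelSpace M] [SecondCountableTopology M] {ι : Type} [Fintype ι]
  {X P : Type} [NormedAddCommGroup X] [NormedSpace ℝ X] (pt : P → X)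
  {U V W : Type} [NormedAddCommGroup U] [InnerProductSpace ℝ U] [CompleteSpace U]
  [NormedAddCommGroup V] [InnerProductSpace ℝ V] [CompleteSpace V]
  [NormedAddCommGroup W] [InnerProductSpace ℝ W] [CompleteSpace W]
  {κ : Type} [Fintype κ] [DecidableEq κ]
  {K : Type} [NormedAddCommGroup K] [InnerProductSpace ℝ K] [CompleteSpace K]

/-- families of multipliers -/
def MuF (F : Fr I M ι) (l : ℕ) (T : P → M → V →L[ℝ] W) : Prop := (∀ y, F.Cb (T y)) ∧
  ∃ τ : X → HT F.toPre V l →L[ℝ] HT F.toPre W l, ContDiff ℝ ∞ τ ∧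
    ∀ y, τ (pt y) = F.mulH l _ _ (T y)

/-- families of sections -/
def AY (F : Fr I M ι) (l : ℕ) (a : P → M → V) : Prop := (∀ y, Sm I (a y)) ∧
  ∃ δ : X → HT F.toPre V l, ContDiff ℝ ∞ δ ∧ ∀ y, Is F.toPre l _ (δ (pt y)) (a y)

/-- families of operators -/
def OP (F : Fr I M ι) (l : ℕ) (a : P → M → Fm κ K) : Prop :=
  ∃ S : X → K →L[ℝ] HT F.toPre (Eu κ) l, ContDiff ℝ ∞ S ∧
    ∀ y h, Is F.toPre l _ (S (pt y) h) fun z => ct h (a y z)

/-- `b` is obtained from `a` by a smooth family of operators -/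
def Tr (F : Fr I M ι) (l l' : ℕ) (a b : P → M → Fm κ K) : Prop := (∀ y, Sm I (b y)) ∧
  ∃ τ : X → HT F.toPre (Eu κ) l →L[ℝ] HT F.toPre (Eu κ) l', ContDiff ℝ ∞ τ ∧
    ∀ y h u, Is F.toPre l _ u (fun z => ct h (a y z)) →
      Is F.toPre l' _ (τ (pt y) u) fun z => ct h (b y z)

variable {pt} {F : Fr I M ι} {l l' j : ℕ}

theorem MuF.fixed {T : M → V →L[ℝ] W} (h : F.Cb T) : MuF pt F l fun _ => T :=
  ⟨fun _ => h, _, contDiff_const, fun _ => rfl⟩

theorem MuF.add {S T : P → M → V →L[ℝ] W} (h : MuF pt F l S) (k : MuF pt F l T) :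
    MuF pt F l fun y x => S y x + T y x :=
  let ⟨h1, _, h2, h3⟩ := h
  let ⟨k1, _, k2, k3⟩ := k
  ⟨fun y => Cb_add (h1 y) (k1 y), _, h2.add k2, fun y => by
    rw [h3, k3, ← mulH_add (h1 y) (Maps.triv _) (k1 y) (Maps.triv _)]; rfl⟩

section res
variable [FiniteDimensional ℝ V] {A : P → ι → M → V →L[ℝ] V}

/-- **the resolvent depends smoothly on the connection** -/
theorem exists_R (hd : DenseRange pt) {C : ℕ → ℝ} (hF : F.Tame C) (hA : ∀ y, Ok F (A y))
    (h1 : ∀ c, MuF pt F l fun y => A y c) (h2 : ∀ c, MuF pt F (l + 1) fun y => A y c) :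
    ∃ R : X → HT F.toPre V l →L[ℝ] HT F.toPre V (l + 2), ContDiff ℝ ∞ R ∧
      ∀ y, R (pt y) = GH F (A y) l := by
  choose T₁ a1 a2 using fun c => (h1 c).2
  choose T₂ b1 b2 using fun c => (h2 c).2
  let T : X → Mu F.toPre V l := fun x => (fun c => T₁ c x, fun c => T₂ c x)
  have hT : ∀ y, Mon62.RepM F.toPre (T (pt y)) (A y) := fun y =>
    ⟨fun c => by simp only [T, a2]; exact rep_mulH ((hA y).cb c) (Maps.triv _),
      fun c => by simp only [T, b2]; exact rep_mulH ((hA y).cb c) (Maps.triv _)⟩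
  have cT : Continuous T := (continuous_pi fun c => (a1 c).continuous).prodMk
    (continuous_pi fun c => (b1 c).continuous)
  have hi : ∀ x, (QQ F.toPre F l (T x)).IsInvertible := fun x => by
    obtain ⟨_, hK⟩ := Mon62.rb1_dr (V := V) (Mon62.dr_refl F) hF l ‖T x‖
    refine Mon62.isInvertible_of_bij (hK _ (map_mem_closure cT (hd x) ?_) le_rfl).1
    rintro _ ⟨y, rfl⟩
    exact ⟨A y, (hA y).mc.sm, (hA y).sk, hT y⟩
  have cQ : ContDiff ℝ ∞ fun x => QQ F.toPre F l (T x) := contDiff_const.sub (ContDiff.sum fun c _ =>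
    ((contDiff_const.add ((a1 c).clm_comp contDiff_const)).add contDiff_const).clm_comp
      (contDiff_const.add ((b1 c).clm_comp contDiff_const)))
  refine ⟨fun x => (QQ F.toPre F l (T x)).inverse, contDiff_iff_contDiffAt.2 fun x => ?_, fun y => ?_⟩
  · obtain ⟨e, he⟩ := hi x
    have := contDiffAt_map_inverse (n := ∞) e
    rw [he] at this
    exact this.comp x cQ.contDiffAt
  · exact congrArg ContinuousLinearMap.inverse (RepT_eq (Mon62.rep_QQ (Mon62.act_self hF) (hT y))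
      ((hA y).rh.ell.spec l).1 fun u => (Wrd81.lap1_eq F (A y) u.1).symm)

end res

namespace AY
variable {a b : P → M → V}

theorem congr (h : AY pt F l a) (e : ∀ y x, b y x = a y x) : AY pt F l b := by
  rwa [show b = a from funext₂ e]

theorem zero : AY pt F l fun _ _ => (0 : V) :=
  ⟨fun _ => contMDiff_const, _, contDiff_const, fun _ => Is.zero⟩

theorem add (h : AY pt F l a) (k : AY pt F l b) : AY pt F l fun y x => a y x + b y x :=
  let ⟨h1, _, h2, h3⟩ := h
  let ⟨k1, _, k2, k3⟩ := k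
  ⟨fun y => (h1 y).add (k1 y), _, h2.add k2, fun y => (h3 y).add (k3 y)⟩

theorem fixed [CompactSpace M] {a : M → V} (h : Sm I a) : AY pt F l fun _ => a :=
  ⟨fun _ => h, _, contDiff_const, fun _ => Is.toH ⟨a, mem_triv h (.of_compactSpace _)⟩⟩

theorem eq_toH [CompactSpace M] {a : M → V} (h : Sm I a) {u : HT F.toPre V l}
    (k : Is F.toPre l _ u a) : u = F.toH l _ ⟨a, mem_triv h (.of_compactSpace _)⟩ :=
  k.unique (Is.toH ⟨a, mem_triv h (.of_compactSpace _)⟩)

theorem clm {T : M → V →L[ℝ] W} (hT : F.Cb T) (h : AY pt F l a) :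
    AY pt F l fun y x => T x (a y x) :=
  let ⟨h1, _, h2, h3⟩ := h
  ⟨fun y => (cb_sm hT).clm_apply (h1 y), _, (F.mulH l _ _ T).contDiff.comp h2,
    fun y => (h3 y).mulH hT (Maps.triv _)⟩

/-- families of level `j` are multipliers -/
theorem mu [CompactSpace M] {S : ℝ} (hS : Sup F.toPre S) (β : U →L[ℝ] V →L[ℝ] W) (hj : 7 ≤ j)
    (hl : l ≤ j) {α : P → M → U} (h : AY pt F j α) : MuF pt F l fun y x => β (α y x) := by
  obtain ⟨h1, δ, h2, h3⟩ := h
  have c := fun y => Cb_clm β (Cb_of_compact (F := F.toPre) (h1 y))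
  refine ⟨c, _, (F.bilH j l _ _ _ l fun _ => β).contDiff.comp h2, fun y => ?_⟩
  rw [comp_apply, eq_toH (h1 y) (h3 y)]
  exact RepT_eq (Rep₂_left (rep_bilH hS (Lev.left hj hl) (Cb_const β) (Maps₂.triv _)) _)
    (rep_mulH (c y) (Maps.triv _)) fun _ => rfl

theorem tr {a b : P → M → Fm κ K} (h : AY pt F l a) (k : Tr pt F l l' a b) : AY pt F l' b :=
  let ⟨_, _, h2, h3⟩ := h
  let ⟨k1, _, k2, k3⟩ := k
  ⟨k1, _, ((lft K).contDiff.comp k2).clm_apply h2, fun y =>
    is_lft (k1 y).continuous.aestronglyMeasurable fun h => k3 y h _ (Is.ctH (h3 y) h)⟩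

end AY

namespace OP
variable {a b : P → M → Fm κ K}

theorem zero : OP pt F l fun _ _ => (0 : Fm κ K) :=
  ⟨fun _ => 0, contDiff_const, fun _ _ => by simp only [map_zero]; exact Is.zero⟩

theorem add (h : OP pt F l a) (k : OP pt F l b) : OP pt F l fun y x => a y x + b y x :=
  let ⟨_, h2, h3⟩ := h
  let ⟨_, k2, k3⟩ := k
  ⟨_, h2.add k2, fun y h => by simp only [map_add]; exact (h3 y h).add (k3 y h)⟩

theorem tr (h : OP pt F l a) (k : Tr pt F l l' a b) : OP pt F l' b :=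
  let ⟨_, h2, h3⟩ := h
  let ⟨_, _, k2, k3⟩ := k
  ⟨_, k2.clm_comp h2, fun y h => k3 y h _ (h3 y h)⟩

end OP

section tr
variable {a b : P → M → Fm κ K} {A : P → ι → M → En κ}

theorem tr_low (ha : ∀ y, Sm I (a y)) (h : l' ≤ l) : Tr pt F l l' a a :=
  ⟨ha, _, contDiff_const, fun _ _ _ hu => hu.incl h⟩

theorem tr_D (ha : ∀ y, Sm I (a y)) (c : ι) : Tr pt F (l + 1) l a fun y => F.D c (a y) :=
  ⟨fun y => F.sm_D (ha y) c, _, contDiff_const, fun y h u hu => by
    have := hu.DH (sm_ct (ha y) h) c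
    rwa [D_clm F.toPre _ (ha y)] at this⟩

theorem tr_op (ha : ∀ y, Sm I (a y)) {T : P → M → En κ} (hT : MuF pt F l T) :
    Tr pt F l l a fun y x => amp K (T y x) (a y x) :=
  let ⟨h1, _, h2, h3⟩ := hT
  ⟨fun y => ((amp K).contMDiff.comp (cb_sm (h1 y))).clm_apply (ha y), _, h2, fun y h u hu => by
    simp only [ct_amp, h3]; exact hu.mulH (h1 y) (Maps.triv _)⟩

theorem isRes_ct {A : ι → M → En κ} (hA : ∀ a, Sm I (A a)) {α β : M → Fm κ K}
    (h : F.IsRes (aA K A) α β) (k : K) : F.IsRes A (fun z => ct k (α z)) fun z => ct k (β z) :=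
  Mp86.isRes_map (T := fun _ => ct k) (sm_aA hA) contMDiff_const ⟨_, fun _ => le_rfl⟩ (itw_ct k) h

theorem tr_res (hd : DenseRange pt) {C : ℕ → ℝ} (hF : F.Tame C) (hA : ∀ y, Ok F (A y))
    (h1 : ∀ c, MuF pt F l fun y => A y c) (h2 : ∀ c, MuF pt F (l + 1) fun y => A y c)
    (h : ∀ y, F.IsRes (aA K (A y)) (a y) (b y))
    (hL : ∀ y k, ∃ x, Lv F.toPre x ∧ Is F.toPre 0 _ x fun z => ct k (a y z)) :
    Tr pt F l (l + 2) a b := by
  obtain ⟨R, r1, r2⟩ := exists_R hd hF hA h1 h2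
  refine ⟨fun y => (h y).1, R, r1, fun y k u hu => ?_⟩
  obtain ⟨x, x1, x2⟩ := hL y k
  obtain rfl := (hu.incl (Nat.zero_le l)).unique x2
  have e := isRes_ct (hA y).mc.sm (h y) k
  have := ((hA y).res x1 (Mp86.sm_isRes (hA y).mc.sm e) x2).2.2
  rw [Mp86.res_eq (hA y).bmp (hA y).mc e, G0, ContinuousLinearMap.comp_apply,
    (hA y).rh.G0_incl] at this
  rw [r2]
  exact Is.of_incl (Nat.zero_le _) this

end tr

theorem fi_D {S : K →L[ℝ] KK F.toPre κ} {α : M → Fm κ K} (h : FI F S α) (c : ι) :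
    ∃ S', FI F S' (F.D c α) := by
  classical
  obtain ⟨S₁, h1⟩ := exists_lift h.lv 1
  have := h.dop (σ := fun a _ => if a = c then 1 else 0) (B := fun _ => 0)
    (fun _ => Cb_const _) (Cb_const _) h1
  refine ⟨_, cast (congrArg _ (funext fun z => ?_)) this⟩
  simp [Pre.op, aA, apply_ite, amp_one, ite_apply]

end Crest.Agent.X212.Cyt76
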