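import Crest.Agent.X212.Cyt76.Yw
import Crest.Agent.X212.Der92.DerI

/-!
# Row 212, CYC-T (helper76): the cyclic invariants are smooth on the Banach model
-/

set_option autoImplicit false
set_option linter.unusedSectionVars false
set_option maxSynthPendingDepth 3
noncomputable section
open scoped Manifold ContDiff Topology InnerProductSpace
open MeasureTheory Set Function Filter

namespace Crest.Agent.X212.Cyt76
open An Sob92 Wz78 Cyc79 Cyf70 Dgr80 Nd18 Der92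
open Crt72 (SP pt pc pv cf an yf RpT Rpf Bc dw)
open Lin97 (Hy)

variable {E3 : Type} [NormedAddCommGroup E3] [NormedSpace ℝ E3] [FiniteDimensional ℝ E3]
  [MeasurableSpace E3] [BorelSpace E3]
  {H3 : Type} [TopologicalSpace H3] {I3 : ModelWithCorners ℝ E3 H3} [I3.Boundaryless]
  {Y : Type} [TopologicalSpace Y] [ChartedSpace H3 Y] [IsManifold I3 ∞ Y] [T2Space Y]
  [MeasurableSpace Y] [BorelSpace Y] [SecondCountableTopology Y] [CompactSpace Y]
  {κ : Type} [Fintype κ] {lam : Type} [Fintype lam] {j : ℕ} {f f' : Y → ℝ} {w w' : List (La Y)}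

section gen
variable {X P : Type} [NormedAddCommGroup X] [NormedSpace ℝ X] {q : P → X}
  {σ : Type} [Fintype σ] [DecidableEq σ] {F : Fr I3 Y κ} {A : P → κ → Y → En σ} {p : Y → En σ}
  {A' : P → Option κ → Y × ℝ → En σ}

theorem lz_LZ (hw : ∀ t ∈ w, laOK I3 t) : ∀ t ∈ w.map lz, LZ I3 t :=
  List.forall_mem_map.2 fun t ht => by
    cases t
    exacts [⟨_, hw _ ht, rfl⟩, trivial]

theorem xw_LZ (hs : Sep F.toPre f f') : ∀ t ∈ xw (fun x : Y × ℝ => f x.1) fun x => f' x.1, LZ I3 t :=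
  lz_LZ (w := xw f f') (laOK_of hs.ok)

variable (h : St q F j A) (e : ∀ y, A' y = ca (A y)) (hp : Sm I3 p) (hs : Sep F.toPre f f')
  (hw : ∀ t ∈ w, laOK I3 t) (hw' : ∀ t ∈ w', laOK I3 t)
include h e hp hs hw

theorem wc_fa : WC q F j fun y => fa (cyl F) (A' y) (fun x => p x.1) (fun x => f x.1)
    (fun x => f' x.1) (w.map lz) := by
  simp only [e]
  exact (wc_bs h hp hs.symm).wd h (List.forall_mem_append.2 ⟨lz_LZ hw, xw_LZ hs⟩)

include hw'

theorem ay_gg {U : Type} [NormedAddCommGroup U] [InnerProductSpace ℝ U] [CompleteSpace U]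
    {L : P → Y → En σ} (hL : Mf q F j L) (r : CL U (CL (VV (cyl F).toPre σ) (VV (cyl F).toPre σ)))
    (c : κ) : AY q F j fun y x => gg (cyl F) (A' y) (fun x => p x.1) (fun x => L y x.1)
      (fun x => f x.1) (fun x => f' x.1) (w.map lz) (w'.map lz) r (x, 0) (some c) := by
  have k := wc_fa h e hp hs hw'
  have o := List.forall_mem_append.2 ⟨lz_LZ hw, xw_LZ hs⟩
  simp only [e] at k ⊢
  exact (((wc_bs h hp hs.symm).gc h r o (k.op h hL) c).add ((wc_bs h hp hs).gc h r (xw_LZ hs.symm)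
    ((((wc_bs h hp hs).wd h (lz_LZ hw')).op h hL).bk h o) c))

end gen

variable {D : YD I3 Y κ lam} {β : YC Y κ lam} {d : Cy Y} (h : Hy D β) (hj : 8 ≤ j)

/-- the adjoint connection of a variation -/
abbrev aY (y : SP D β) : κ → Y → En (Fin β.m.N × Fin β.m.N) := an (cf y)

theorem ay_α : AY (pt D β j) D.F j fun y => y.1.1 :=
  ⟨fun y => y.1.2.1, fun v => fg _ j _ v.1, (fg _ j _).contDiff.comp contDiff_fst,
    fun y => (Is.toH y.1).fg⟩

include h hj

theorem st : St (pt D β j) D.F j aY where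
  dr := Lin97.dense_pt
  hj := hj
  okY y := ⟨h.tame, fun a => Cb_of_compact ((h.cf y).sm_an a), (h.cf y).sk_an, (h.cf y).con_an.proj⟩
  okZ y := (ppZ (h.cf y)).toOk
  tY := h.tame
  tZ := (ppZ h).tame
  mf c := ((AY.fixed (hsL.contMDiff.comp (h.sm_an c))).add
    (ay_α.clm (Cb_const (hsL ∘L adcL ∘L opL ∘L Map77.pj _ c)))).congr fun y x =>
      (congrArg hsL (map_add adcL (β.W (some c) x) (opL (y.1.1 x c)))).trans (map_add _ _ _)

variable (hd : d.OK D.F)
include hd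

theorem ay_sy : AY (V := β.m.A) (pt D β j) D.F j fun y => sy D (cf y) d := by
  have k := fun {w} hw => (wc_fa (w := w) (st h hj) (fun y => adW_ca (h.cf y)) h.sm_pg hd.sep hw).ay
  refine (((k (laOK_of hd.w)).bil h.sup (tpL (amp _ ∘L adR _)) (by omega)
    (k (laOK_of hd.w'))).clm h.cb_pg).congr fun y x => ?_
  rw [sy, cyc_eq]
  rfl

theorem ay_σy {l : SP D β → Y → β.m.A} (hl : AY (pt D β j) D.F j l) :
    AY (V := Fm κ β.m.A) (pt D β j) D.F j fun y => σy D (cf y) d (l y) := AY.pi fun c => by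
  have hL : Mf (pt D β j) D.F j fun y x => adR _ (β.m.pg x (l y x)) :=
    (hl.clm h.cb_pg).clm (Cb_const (hsL ∘L adR _))
  have k := fun {w w'} hw hw' => ay_gg (w := w) (w' := w') (st h hj) (fun y => adW_ca (h.cf y))
    h.sm_pg hd.sep hw hw' hL (amp _ ∘L adR _) c
  refine ((k (laOK_of hd.w') (laOK_of hd.w)).sub (k (laOK_of hd.w) (laOK_of hd.w'))).congr
    fun y x => ?_
  rw [σy, cyc_eq]
  rfl

theorem ay_wy (hw : ∀ t ∈ w, laOK I3 t) :
    AY (V := β.m.A) (pt D β j) D.F j fun y => wy D (cf y) d w :=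
  (st h hj).wdY hw (ay_sy h hj hd)

theorem ay_gy (hw : ∀ t ∈ w, laOK I3 t) {l : SP D β → Y → β.m.A} (hl : AY (pt D β j) D.F j l) :
    AY (V := Fm κ β.m.A) (pt D β j) D.F j fun y => gy D (cf y) d w (l y) :=
  ((st h hj).gcY hw (adR _) (ay_sy h hj hd) hl).add (ay_σy h hj hd ((st h hj).bkY hw hl))

omit hd

theorem rpT_cy (i : Bc D) : ∃ T, RpT D β (yf D (.cy i)) j j T := by
  obtain ⟨k1, δ, k2, k3⟩ := (ay_gy h hj i.2.1 i.2.2.1 (ay_wy h hj i.2.2.2.1 i.2.2.2.2)).add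
    (ay_gy h hj i.2.2.2.1 i.2.2.2.2 (ay_wy h hj i.2.1 i.2.2.1))
  refine ⟨fun v => (D.F.mulH j _ _ (pc D β) (δ v), 0), ((ContinuousLinearMap.contDiff _).comp k2).prodMk
    contDiff_const, fun y x => ⟨?_, ?_⟩⟩
  · rw [gA_cy (h.cf y)]
    exact congrFun (((k3 y).mulH h.cb_pc fun x v _ => Lin97.prj_pc.idem x _).val_eq h.sup (by omega)
      ((cb_sm h.cb_pc).clm_apply (k1 y)).continuous) x
  · rw [val_zero]
    exact ((congrArg _ (add_zero _)).trans (map_zero _)).symm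

omit hj in
theorem f_cy (i : Bc D) : (yf D (.cy i)).f β =
    ∫ x, ⟪wy D β i.1.1.1 i.1.1.2 x, wy D β i.1.2.1 i.1.2.2 x⟫_ℝ ∂D.F.μ := by
  refine integral_congr_ae (.of_forall fun x => ?_)
  refine (congrArg (· * _) (Spn45.nk_χ _)).trans ((one_mul _).trans ?_)
  exact congrArg₂ (fun a b : β.m.A => ⟪a, b⟫_ℝ) (congrFun (s_wd h i.2.1 _) (x, 0))
    (congrFun (s_wd h i.2.2.2.1 _) (x, 0))

theorem rpf_cy (i : Bc D) : ∃ f, Rpf D β (yf D (.cy i)) j f :=
  ((ay_wy h hj i.2.1 i.2.2.1).inner (ay_wy h hj i.2.2.2.1 i.2.2.2.2)).imp fun _ k =>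
    ⟨k.1, fun y => (k.2 y).trans (f_cy (h.cf y) i).symm⟩

end Crest.Agent.X212.Cyt76
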