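import Crest.Agent.X212.Cyt76.Cls
import Crest.Agent.X212.Mp86.Ctl

/-!
# Row 212, CYC-T (helper76): words on the cross-section; descent of dominated functions
-/

set_option autoImplicit false
set_option linter.unusedSectionVars false
set_option maxSynthPendingDepth 3
noncomputable section
open scoped Manifold ContDiff Topology InnerProductSpace
open MeasureTheory Set Function Filter

namespace Crest.Agent.X212.Cyt76
open An Sob92 Wz78 Cyc79 Cyf70 Dgr80
open Nd18 (ca laOK)
open Wrd81 (wd)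

variable {E : Type} [NormedAddCommGroup E] [NormedSpace ℝ E] [FiniteDimensional ℝ E]
  [MeasurableSpace E] [BorelSpace E]
  {HM : Type} [TopologicalSpace HM] {I : ModelWithCorners ℝ E HM} [I.Boundaryless]
  {Y : Type} [TopologicalSpace Y] [ChartedSpace HM Y] [IsManifold I ∞ Y] [T2Space Y]
  [MeasurableSpace Y] [BorelSpace Y] [SecondCountableTopology Y] [CompactSpace Y]
  {ι : Type} [Fintype ι]
  {X P : Type} [NormedAddCommGroup X] [NormedSpace ℝ X] {pt : P → X}
  {κ : Type} [Fintype κ] [DecidableEq κ]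
  {U V W : Type} [NormedAddCommGroup U] [InnerProductSpace ℝ U] [CompleteSpace U]
  [NormedAddCommGroup V] [InnerProductSpace ℝ V] [CompleteSpace V]
  [NormedAddCommGroup W] [InnerProductSpace ℝ W] [CompleteSpace W]
  {F : Fr I Y ι} {j l : ℕ} {A : P → ι → Y → En κ}

theorem AY.mul {T : P → Y → V →L[ℝ] W} (hT : MuF pt F l T) {a : P → Y → V} (h : AY pt F l a) :
    AY pt F l fun y x => T y x (a y x) :=
  let ⟨h1, _, h2, h3⟩ := h
  let ⟨k1, _, k2, k3⟩ := hT
  ⟨fun y => (cb_sm (k1 y)).clm_apply (h1 y), _, k2.clm_apply h2, fun y => by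
    rw [k3]; exact (h3 y).mulH (k1 y) (Maps.triv _)⟩

theorem AY.low {a : P → Y → V} {l' : ℕ} (hl : l' ≤ l) (h : AY pt F l a) : AY pt F l' a :=
  let ⟨h1, _, h2, h3⟩ := h
  ⟨h1, _, (F.incl l l' _).contDiff.comp h2, fun y => (h3 y).incl hl⟩

theorem AY.D {a : P → Y → V} (h : AY pt F (l + 1) a) (c : ι) : AY pt F l fun y => F.D c (a y) :=
  let ⟨h1, _, h2, h3⟩ := h
  ⟨fun y => F.sm_D (h1 y) c, _, (ContinuousLinearMap.contDiff _).comp h2,
    fun y => (h3 y).DH (h1 y) c⟩

theorem AY.pi {J : Type} [Fintype J] {g : P → Y → Fm J V} (h : ∀ c, AY pt F l fun y x => g y x c) :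
    AY pt F l g := by
  classical
  have : ∀ t : Finset J, AY pt F l fun y x => ∑ c ∈ t, Map77.ij V c (g y x c) := fun t => by
    induction t using Finset.induction_on with
    | empty => simpa using AY.zero
    | insert i t hi ih => simpa only [Finset.sum_insert hi] using ((h i).clm (Cb_const _)).add ih
  exact (this Finset.univ).congr fun y x => PiLp.ext fun c => (Map77.sum_ij _ c).symm

theorem AY.inner {a b : P → Y → V} (h : AY pt F l a) (k : AY pt F l b) :
    ∃ f : X → ℝ, Continuous f ∧ ∀ y, f (pt y) = ∫ x, ⟪a y x, b y x⟫_ℝ ∂F.μ := by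
  obtain ⟨h1, δ, h2, h3⟩ := h.low (Nat.zero_le _)
  obtain ⟨k1, ε, k2, k3⟩ := k.low (Nat.zero_le _)
  refine ⟨fun v => ⟪δ v, ε v⟫_ℝ, h2.continuous.inner k2.continuous, fun y => ?_⟩
  beta_reduce
  rw [AY.eq_toH (h1 y) (h3 y)]
  exact is_inner (k3 y) _

theorem slT_la (F : Fr I Y ι) (A : ι → Y → CL V V) (t : La Y) :
    slT F A (laV V t) = sl F A (laV V t) := by
  cases t
  · funext l x
    simp [slT, sl, laV, ContinuousLinearMap.one_def, ContinuousLinearMap.adjoint_id]
  · rfl

namespace St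
variable (h : St pt F j A) {a b : P → Y → Eu κ}
include h

theorem resY (k : AY pt F j a) : AY pt F (j + 1) fun y => F.res (A y) (a y) := by
  obtain ⟨m, rfl⟩ : ∃ m, j = m + 1 := ⟨j - 1, by have := h.hj; omega⟩
  obtain ⟨R, r1, r2⟩ := exists_R (l := m) h.dr h.tY.choose_spec h.okY
    (fun c => h.muY (h.mf c) (by omega)) fun c => h.muY (h.mf c) le_rfl
  obtain ⟨k1, δ, k2, k3⟩ := k.low (Nat.le_succ m)
  refine ⟨fun y => Mp86.sm_res _ _ _, _, r1.clm_apply k2, fun y => ?_⟩
  have e := (k3 y).incl (Nat.zero_le m)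
  have := ((h.okY y).res (AY.eq_toH (k1 y) e ▸ lv_toH _) (k1 y) e).2.2
  rw [G0, ContinuousLinearMap.comp_apply, (h.okY y).rh.G0_incl] at this
  rw [r2]
  exact Is.of_incl (Nat.zero_le _) this

theorem nabY (k : AY pt F (j + 1) a) (c : ι) : AY pt F j fun y => nab I F.e (A y) c (a y) :=
  (k.D c).add ((k.low (Nat.le_succ j)).mul (h.muY (h.mf c) le_rfl))

theorem slY {t : La Y} (ht : laOK I t) (k : AY pt F j a) :
    AY pt F j fun y => sl F (A y) (laV _ t) (a y) := by
  cases t
  exacts [k.clm (Cb_of_compact (ContMDiff.smul ht contMDiff_const)), (h.resY k).low (Nat.le_succ j)]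

variable {w : List (La Y)} (hw : ∀ t ∈ w, laOK I t)
include hw

theorem wdY (k : AY pt F j a) : AY pt F j fun y => wd (sl F (A y)) (a y) (w.map (laV _)) := by
  induction w with
  | nil => exact k
  | cons t w ih => exact h.slY (hw t (by simp)) (ih fun s hs => hw s (by simp [hs]))

theorem bkY (k : AY pt F j a) : AY pt F j fun y => bk F (A y) (w.map (laV _)) (a y) := by
  induction w generalizing a with
  | nil => exact k
  | cons t w ih =>
    simp only [List.map_cons, bk, slT_la]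
    exact ih (fun s hs => hw s (by simp [hs])) (h.slY (hw t (by simp)) k)

theorem gcY (r : CL U (En κ)) (k : AY pt F j a) (k' : AY pt F j b) :
    AY pt F j fun y => gc F (A y) r (a y) (w.map (laV _)) (b y) := by
  have := h.hj
  induction w generalizing b with
  | nil => exact AY.zero
  | cons t w ih =>
    have hw' : ∀ s ∈ w, laOK I s := fun s hs => hw s (by simp [hs])
    rcases t with g | _
    · have := ih hw' (h.slY (hw (.mul g) (by simp)) k')
      simp only [← slT_la] at this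
      exact this
    · have a2 := h.resY (h.wdY hw' k)
      have b2 := h.resY k'
      have a1 := a2.low (Nat.le_succ j)
      have b1 := b2.low (Nat.le_succ j)
      exact (ih hw' b1).sub (AY.pi fun c => (a1.bil h.supY (tpL r) (by omega) (h.nabY b2 c)).add
        (b1.bil h.supY (tpL r) (by omega) (h.nabY a2 c)))

end St

open Mp86 in
/-- a `t`-independent function dominated on the cylinder is dominated on the cross-section -/
theorem dom_slice {C : ℕ → ℝ} (hF : F.Tame C) {g : Y → ℝ} (hg : Sm I g) (g0 : ∀ x, 0 ≤ g x) {β : ℝ}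
    (h : Dom (cyl F) β fun x => g x.1) : Dom F (2 * β) g := by
  obtain ⟨k, k1, k2⟩ := h
  obtain ⟨H, H1, ⟨c, H2⟩, H3⟩ := Mon62.exists_res (A := fun _ _ => (0 : ℝ →L[ℝ] ℝ)) hF
    (fun _ => contMDiff_const) (fun _ _ _ _ => by simp) hg
  have n : ∀ {u : Y → ℝ} a, nab I F.e (fun _ _ => 0) a u = dv I (F.e a) u :=
    fun a => funext fun x => add_zero _
  have e : ∀ x, Lop I F.e F.dv H x = H x - g x := fun x => by
    rw [← H3 x]; simp only [lap, n, Lop]; ring
  have eZ : ∀ x, Lop (IC I) (cyl F).e (cyl F).dv (fun x => H x.1) x = H x.1 - g x.1 := fun x => by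
    have d := fun (s : Y → ℝ) a => Spn45.dv_fst (e := F.e) s a
    have d' : ∀ (s : Y → ℝ) a, dv (IC I) ((cyl F).e a) (fun x => s x.1) = _ := d
    rw [← e, Lop, Fintype.sum_option]
    simp only [d', ca]
    rw [Mp86.dv_const, smul_zero, add_zero, zero_add]
    rfl
  have p : ∀ x, -H x ≤ 0 := fun x => maxp_bdd (f := fun x => -H x) (C := c) bumps_of_compact
    finite_empty (by simp) (vf F.toPre) (by simp) (by simp) (fun y _ => cm2 H1.neg y)
    (fun y _ => (neg_le_abs _).trans (H2 y)) (fun δ hδ => ⟨δ, hδ, fun y _ hy => by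
      have := Lop_mul (b := F.dv) (-1) (vf F.toPre y) (cm2 H1 y)
      simp only [neg_mul, one_mul, e] at this
      linarith [g0 y]⟩) x (by simp)
  have s2 : Sm (IC I) fun x => (1 / 2 : ℝ) * k x := contMDiff_const.mul k1
  have q : ∀ x : Y × ℝ, H x.1 + 1 / 2 * k x ≤ β := fun x => maxp_bdd
    (f := fun x => H x.1 + 1 / 2 * k x) (C := c + 1 / 2 * β) (Spn45.bumps_cyl F)
    finite_empty (by simp) (vf (cyl F).toPre) (by simp) (by simp)
    (fun y _ => cm2 ((sm_fst H1).add s2) y)
    (fun y _ => by linarith [(le_abs_self _).trans (H2 y.1), (k2 y).2.1])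
    (fun δ hδ => ⟨δ, hδ, fun y _ hy => by
      rw [Lop_add (vf _ y) (cm2 (sm_fst H1) y) (cm2 s2 y), Lop_mul _ (vf _ y) (cm2 k1 y), eZ]
      linarith [(k2 y).2.1, (k2 y).2.2]⟩) x (by simp)
  have s3 : Sm I fun x => 2 * H x := contMDiff_const.mul H1
  refine ⟨fun x => 2 * β - 2 * H x, contMDiff_const.sub s3, fun x => ⟨?_, ?_, ?_⟩⟩
  · linarith [q (x, 0), (k2 (x, 0)).1]
  · linarith [p x]
  · rw [Lop_sub (vf _ x) (cm2 contMDiff_const x) (cm2 s3 x), Lop_const, Lop_mul _ (vf _ x) (cm2 H1 x), e]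
    linarith [q (x, 0), (k2 (x, 0)).1]

end Crest.Agent.X212.Cyt76
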